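import Mathlib

namespace Vale.Agent.Lib.P228.Local

open Filter Topology

/-- Powers of p tend to zero in the p-adic integers. -/
theorem tendsto_pow_zero' (p : ℕ) [Fact p.Prime] :
    Tendsto (fun k : ℕ => ((p : ℤ_[p]) ^ k)) atTop (𝓝 0) := by
  apply tendsto_pow_atTop_nhds_zero_of_norm_lt_one
  rw [PadicInt.norm_p]
  have hp : (1 : ℝ) < p := by exact_mod_cast (Fact.out : p.Prime).one_lt
  exact inv_lt_one_of_one_lt₀ hp

/-- Core step: if `x` and `g +ᵥ x` both lie in a set `N` on which every natural multiple of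
`g` acts monotonically, then `g` fixes `x`. -/
theorem local_fixed (p : ℕ) [Fact p.Prime] {H : Type*} [NormedAddCommGroup H]
    [InnerProductSpace ℝ H] (M : Set H) [AddAction ℤ_[p] M] [ContinuousVAdd ℤ_[p] M]
    (N : Set M) (g : ℤ_[p])
    (hmono : ∀ j : ℕ, ∀ y ∈ N, ∀ z ∈ N,
      0 ≤ inner ℝ ((((j • g) +ᵥ y : M) : H) - (((j • g) +ᵥ z : M) : H)) ((y : H) - (z : H)))
    (x : M) (hx : x ∈ N) (hgx : g +ᵥ x ∈ N) : g +ᵥ x = x := by
  set d : H := ((g +ᵥ x : M) : H) - (x : H) with hd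
  have hstep : ∀ j : ℕ, inner ℝ ((((j • g) +ᵥ x : M) : H) - (x : H)) d ≤
      inner ℝ (((((j + 1) • g) +ᵥ x : M) : H) - (x : H)) d := by
    intro j
    have h1 := hmono j (g +ᵥ x) hgx x hx
    have h2 : ((j + 1) • g) +ᵥ x = (j • g) +ᵥ (g +ᵥ x) := by
      rw [succ_nsmul, add_vadd]
    rw [h2]
    have h3 : inner ℝ ((((j • g) +ᵥ (g +ᵥ x) : M) : H) - (x : H)) d
        = inner ℝ ((((j • g) +ᵥ (g +ᵥ x) : M) : H) - (((j • g) +ᵥ x : M) : H)) d
          + inner ℝ ((((j • g) +ᵥ x : M) : H) - (x : H)) d := by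
      rw [← inner_add_left]; congr 1; abel
    rw [h3]
    linarith
  have hmon : ∀ j : ℕ, 1 ≤ j → inner ℝ d d ≤ inner ℝ ((((j • g) +ᵥ x : M) : H) - (x : H)) d := by
    intro j hj
    induction j, hj using Nat.le_induction with
    | base => simp [hd]
    | succ j hj ih => exact ih.trans (hstep j)
  have hlim : Tendsto (fun k : ℕ => inner ℝ (((((p ^ k) • g) +ᵥ x : M) : H) - (x : H)) d) atTop
      (𝓝 (inner ℝ (((0 : ℤ_[p]) +ᵥ x : M) - (x : H)) d)) := by
    have h1 : Tendsto (fun k : ℕ => ((p ^ k) • g : ℤ_[p])) atTop (𝓝 0) := by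
      have := (tendsto_pow_zero' p).mul_const g
      simpa [nsmul_eq_mul] using this
    have h2 : Tendsto (fun k : ℕ => (((p ^ k) • g) +ᵥ x : M)) atTop (𝓝 ((0 : ℤ_[p]) +ᵥ x)) :=
      (continuous_id.vadd continuous_const).continuousAt.tendsto.comp h1
    have h3 : Tendsto (fun k : ℕ => ((((p ^ k) • g) +ᵥ x : M) : H)) atTop
        (𝓝 (((0 : ℤ_[p]) +ᵥ x : M) : H)) :=
      (continuous_subtype_val.tendsto _).comp h2
    exact (h3.sub_const _).inner tendsto_const_nhds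
  have hle : inner ℝ d d ≤ inner ℝ (((0 : ℤ_[p]) +ᵥ x : M) - (x : H)) d := by
    apply ge_of_tendsto hlim
    filter_upwards with k
    exact hmon (p ^ k) (Nat.one_le_pow _ _ (Fact.out : p.Prime).pos)
  have h0 : inner ℝ d d ≤ 0 := by simpa using hle
  have hd0 : d = 0 := by
    have := real_inner_self_nonneg (x := d)
    exact inner_self_eq_zero.mp (le_antisymm h0 this)
  have : ((g +ᵥ x : M) : H) = (x : H) := sub_eq_zero.mp hd0
  exact Subtype.ext this

/-- Locally monotone actions of the p-adic integers on a connected subset of a real inner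
product space are not faithful. -/
theorem locally_monotone_not_faithful (p : ℕ) [Fact p.Prime] {H : Type*} [NormedAddCommGroup H]
    [InnerProductSpace ℝ H] (M : Set H) [AddAction ℤ_[p] M] [ContinuousVAdd ℤ_[p] M]
    (hM : IsPreconnected M)
    (U : AddSubgroup ℤ_[p]) (hU : IsOpen (U : Set ℤ_[p]))
    (hloc : ∀ x : M, ∃ N : Set M, IsOpen N ∧ x ∈ N ∧ ∀ g ∈ U, ∀ y ∈ N, ∀ z ∈ N,
      0 ≤ inner ℝ (((g +ᵥ y : M) : H) - ((g +ᵥ z : M) : H)) ((y : H) - (z : H))) :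
    ¬ FaithfulVAdd ℤ_[p] M := by
  intro hF
  have hp : (p : ℤ_[p]) ≠ 0 := by
    exact_mod_cast (Fact.out : p.Prime).ne_zero
  have : PreconnectedSpace M := isPreconnected_iff_preconnectedSpace.mp hM
  by_cases hne : Nonempty M
  · obtain ⟨x0⟩ := hne
    obtain ⟨N0, hN0, hx0, hmono0⟩ := hloc x0
    -- a power of p in U that moves x0 inside N0
    have hcont : Continuous (fun g : ℤ_[p] => (g +ᵥ x0 : M)) :=
      continuous_id.vadd continuous_const
    have hpre : (fun g : ℤ_[p] => (g +ᵥ x0 : M)) ⁻¹' N0 ∈ 𝓝 (0 : ℤ_[p]) := by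
      apply (hN0.preimage hcont).mem_nhds
      simpa using hx0
    have hev1 : ∀ᶠ k : ℕ in atTop, ((p : ℤ_[p]) ^ k) ∈ (U : Set ℤ_[p]) :=
      (tendsto_pow_zero' p) (hU.mem_nhds U.zero_mem)
    have hev2 : ∀ᶠ k : ℕ in atTop,
        ((p : ℤ_[p]) ^ k) ∈ (fun g : ℤ_[p] => (g +ᵥ x0 : M)) ⁻¹' N0 :=
      (tendsto_pow_zero' p) hpre
    have hev : ∀ᶠ k : ℕ in atTop, ((p : ℤ_[p]) ^ k) ∈ (U : Set ℤ_[p]) ∧
        ((p : ℤ_[p]) ^ k) ∈ (fun g : ℤ_[p] => (g +ᵥ x0 : M)) ⁻¹' N0 :=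
      hev1.and hev2
    obtain ⟨k, hkU, hkN⟩ := hev.exists
    set g : ℤ_[p] := (p : ℤ_[p]) ^ k with hg
    have hgU : ∀ j : ℕ, j • g ∈ U := fun j => U.nsmul_mem hkU j
    -- the fixed point set of g is clopen and contains x0
    have hfix0 : g +ᵥ x0 = x0 :=
      local_fixed p M N0 g (fun j y hy z hz => hmono0 (j • g) (hgU j) y hy z hz) x0 hx0 hkN
    have hclosed : IsClosed {x : M | g +ᵥ x = x} :=
      isClosed_eq (continuous_const_vadd g) continuous_id
    have hopen : IsOpen {x : M | g +ᵥ x = x} := by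
      rw [isOpen_iff_forall_mem_open]
      intro x hx
      obtain ⟨N, hN, hxN, hmono⟩ := hloc x
      refine ⟨N ∩ (fun y : M => g +ᵥ y) ⁻¹' N, ?_, ?_, ?_⟩
      · intro y hy
        exact local_fixed p M N g (fun j y hy z hz => hmono (j • g) (hgU j) y hy z hz) y hy.1 hy.2
      · exact hN.inter (hN.preimage (continuous_const_vadd g))
      · refine ⟨hxN, ?_⟩
        show g +ᵥ x ∈ N
        have hx' : g +ᵥ x = x := hx
        rw [hx']
        exact hxN
    have hclopen : IsClopen {x : M | g +ᵥ x = x} := ⟨hclosed, hopen⟩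
    have huniv : {x : M | g +ᵥ x = x} = Set.univ := by
      rcases isClopen_iff.mp hclopen with h | h
      · have : x0 ∈ ({x : M | g +ᵥ x = x} : Set M) := hfix0
        rw [h] at this
        exact absurd this (Set.notMem_empty _)
      · exact h
    have h1 : ∀ x : M, g +ᵥ x = (0 : ℤ_[p]) +ᵥ x := by
      intro x
      have : x ∈ ({x : M | g +ᵥ x = x} : Set M) := by rw [huniv]; exact Set.mem_univ _
      rw [zero_vadd]
      exact this
    have h2 := hF.eq_of_vadd_eq_vadd h1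
    exact pow_ne_zero k hp h2
  · have h1 : ∀ x : M, (p : ℤ_[p]) +ᵥ x = (0 : ℤ_[p]) +ᵥ x := fun x => absurd ⟨x⟩ hne
    exact hp (hF.eq_of_vadd_eq_vadd h1)

/-- If `h` fixes `y` then so does every natural multiple of `h`. -/
theorem nsmul_fixed {G : Type*} [AddMonoid G] {X : Type*} [AddAction G X] (h : G) (y : X)
    (hy : h +ᵥ y = y) (j : ℕ) : (j • h) +ᵥ y = y := by
  induction j with
  | zero => simp
  | succ j ih => rw [succ_nsmul, add_vadd, hy, ih]

/-- Local triviality: if all elements of an open subgroup `U` act monotonically on an open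
neighbourhood `N` of `x`, then some power `p ^ k` fixes a whole neighbourhood of `x`
pointwise. -/
theorem locally_trivial (p : ℕ) [Fact p.Prime] {H : Type*} [NormedAddCommGroup H]
    [InnerProductSpace ℝ H] (M : Set H) [AddAction ℤ_[p] M] [ContinuousVAdd ℤ_[p] M]
    (x : M) (N : Set M) (hN : IsOpen N) (hxN : x ∈ N)
    (U : AddSubgroup ℤ_[p]) (hU : IsOpen (U : Set ℤ_[p]))
    (hmono : ∀ g ∈ U, ∀ y ∈ N, ∀ z ∈ N,
      0 ≤ inner ℝ (((g +ᵥ y : M) : H) - ((g +ᵥ z : M) : H)) ((y : H) - (z : H))) :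
    ∃ N' : Set M, IsOpen N' ∧ x ∈ N' ∧ ∃ k : ℕ, ∀ y ∈ N', ((p : ℤ_[p]) ^ k) +ᵥ y = y := by
  have hcont : Continuous (fun g : ℤ_[p] => (g +ᵥ x : M)) :=
    continuous_id.vadd continuous_const
  have hpre : (fun g : ℤ_[p] => (g +ᵥ x : M)) ⁻¹' N ∈ 𝓝 (0 : ℤ_[p]) := by
    apply (hN.preimage hcont).mem_nhds
    simpa using hxN
  have hev1 : ∀ᶠ k : ℕ in atTop, ((p : ℤ_[p]) ^ k) ∈ (U : Set ℤ_[p]) :=
    (tendsto_pow_zero' p) (hU.mem_nhds U.zero_mem)
  have hev2 : ∀ᶠ k : ℕ in atTop,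
      ((p : ℤ_[p]) ^ k) ∈ (fun g : ℤ_[p] => (g +ᵥ x : M)) ⁻¹' N :=
    (tendsto_pow_zero' p) hpre
  obtain ⟨k, hkU, hkN⟩ := (hev1.and hev2).exists
  have hgU : ∀ j : ℕ, j • ((p : ℤ_[p]) ^ k) ∈ U := fun j => U.nsmul_mem hkU j
  refine ⟨N ∩ (fun y : M => ((p : ℤ_[p]) ^ k) +ᵥ y) ⁻¹' N,
    hN.inter (hN.preimage (continuous_const_vadd _)), ⟨hxN, hkN⟩, k, ?_⟩
  intro y hy
  exact local_fixed p M N _ (fun j y hy z hz => hmono _ (hgU j) y hy z hz) y hy.1 hy.2

/-- Compact case with point-dependent subgroups: a continuous action of the p-adic integers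
on a compact subset of a real inner product space such that every point has a neighbourhood
on which all elements of some open subgroup act monotonically is not faithful. -/
theorem locally_monotone_compact_not_faithful (p : ℕ) [Fact p.Prime] {H : Type*}
    [NormedAddCommGroup H] [InnerProductSpace ℝ H] (M : Set H) [AddAction ℤ_[p] M]
    [ContinuousVAdd ℤ_[p] M] (hM : IsCompact M)
    (hloc : ∀ x : M, ∃ N : Set M, IsOpen N ∧ x ∈ N ∧ ∃ U : AddSubgroup ℤ_[p],
      IsOpen (U : Set ℤ_[p]) ∧ ∀ g ∈ U, ∀ y ∈ N, ∀ z ∈ N,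
      0 ≤ inner ℝ (((g +ᵥ y : M) : H) - ((g +ᵥ z : M) : H)) ((y : H) - (z : H))) :
    ¬ FaithfulVAdd ℤ_[p] M := by
  intro hF
  have hp : (p : ℤ_[p]) ≠ 0 := by
    exact_mod_cast (Fact.out : p.Prime).ne_zero
  have : CompactSpace M := isCompact_iff_compactSpace.mp hM
  have hloc' : ∀ x : M, ∃ N' : Set M, IsOpen N' ∧ x ∈ N' ∧
      ∃ k : ℕ, ∀ y ∈ N', ((p : ℤ_[p]) ^ k) +ᵥ y = y := by
    intro x
    obtain ⟨N, hN, hxN, U, hU, hmono⟩ := hloc x
    exact locally_trivial p M x N hN hxN U hU hmono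
  choose N' hN'open hxN' kf hkf using hloc'
  obtain ⟨t, ht⟩ := isCompact_univ.elim_finite_subcover N' hN'open
    (fun x _ => Set.mem_iUnion.mpr ⟨x, hxN' x⟩)
  -- a common power
  set K : ℕ := t.sum kf with hK
  have h1 : ∀ y : M, ((p : ℤ_[p]) ^ K) +ᵥ y = (0 : ℤ_[p]) +ᵥ y := by
    intro y
    have hy : y ∈ ⋃ i ∈ t, N' i := ht (Set.mem_univ y)
    simp only [Set.mem_iUnion] at hy
    obtain ⟨i, hit, hyi⟩ := hy
    have hle : kf i ≤ K := Finset.single_le_sum (f := kf) (fun _ _ => Nat.zero_le _) hit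
    have hpow : ((p : ℤ_[p]) ^ K) = (p ^ (K - kf i)) • ((p : ℤ_[p]) ^ kf i) := by
      rw [nsmul_eq_mul]
      push_cast
      rw [← pow_add, Nat.sub_add_cancel hle]
    rw [hpow, zero_vadd]
    exact nsmul_fixed _ y (hkf i y hyi) _
  exact pow_ne_zero K hp (hF.eq_of_vadd_eq_vadd h1)

end Vale.Agent.Lib.P228.Local
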