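import Mathlib

namespace Vale.Agent.Lib.P228

open Filter Topology

/-- Powers of p tend to zero in the p-adic integers. -/
theorem tendsto_pow_zero (p : ℕ) [Fact p.Prime] :
    Tendsto (fun k : ℕ => ((p : ℤ_[p]) ^ k)) atTop (𝓝 0) := by
  apply tendsto_pow_atTop_nhds_zero_of_norm_lt_one
  rw [PadicInt.norm_p]
  have hp : (1 : ℝ) < p := by exact_mod_cast (Fact.out : p.Prime).one_lt
  exact inv_lt_one_of_one_lt₀ hp

theorem monotone_action_trivial (p : ℕ) [Fact p.Prime] {H : Type*} [NormedAddCommGroup H]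
    [InnerProductSpace ℝ H] (M : Set H) [AddAction ℤ_[p] M] [ContinuousVAdd ℤ_[p] M]
    (U : AddSubgroup ℤ_[p])
    (hmono : ∀ g ∈ U, ∀ x y : M,
      0 ≤ inner ℝ (((g +ᵥ x : M) : H) - ((g +ᵥ y : M) : H)) ((x : H) - (y : H)))
    (g : ℤ_[p]) (hg : g ∈ U) (x : M) : g +ᵥ x = x := by
  set d : H := ((g +ᵥ x : M) : H) - (x : H) with hd
  -- phi j = inner ((j • g) +ᵥ x - x) d
  have hstep : ∀ j : ℕ, inner ℝ ((((j • g) +ᵥ x : M) : H) - (x : H)) d ≤
      inner ℝ (((((j + 1) • g) +ᵥ x : M) : H) - (x : H)) d := by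
    intro j
    have h1 := hmono (j • g) (U.nsmul_mem hg j) (g +ᵥ x) x
    have h2 : ((j + 1) • g) +ᵥ x = (j • g) +ᵥ (g +ᵥ x) := by
      rw [succ_nsmul, add_vadd]
    rw [h2]
    have h3 : inner ℝ ((((j • g) +ᵥ (g +ᵥ x) : M) : H) - (x : H)) d
        = inner ℝ ((((j • g) +ᵥ (g +ᵥ x) : M) : H) - (((j • g) +ᵥ x : M) : H)) d
          + inner ℝ ((((j • g) +ᵥ x : M) : H) - (x : H)) d := by
      rw [← inner_add_left]; congr 1; abel
    rw [h3]
    linarith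
  have hmon : ∀ j : ℕ, 1 ≤ j → inner ℝ d d ≤ inner ℝ ((((j • g) +ᵥ x : M) : H) - (x : H)) d := by
    intro j hj
    induction j, hj using Nat.le_induction with
    | base => simp [hd]
    | succ j hj ih => exact ih.trans (hstep j)
  -- limit along p^k
  have hlim : Tendsto (fun k : ℕ => inner ℝ (((((p ^ k) • g) +ᵥ x : M) : H) - (x : H)) d) atTop
      (𝓝 (inner ℝ (((0 : ℤ_[p]) +ᵥ x : M) - (x : H)) d)) := by
    have h1 : Tendsto (fun k : ℕ => ((p ^ k) • g : ℤ_[p])) atTop (𝓝 0) := by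
      have := (tendsto_pow_zero p).mul_const g
      simpa [nsmul_eq_mul] using this
    have h2 : Tendsto (fun k : ℕ => (((p ^ k) • g) +ᵥ x : M)) atTop (𝓝 ((0 : ℤ_[p]) +ᵥ x)) :=
      (continuous_id.vadd continuous_const).continuousAt.tendsto.comp h1
    have h3 : Tendsto (fun k : ℕ => ((((p ^ k) • g) +ᵥ x : M) : H)) atTop
        (𝓝 (((0 : ℤ_[p]) +ᵥ x : M) : H)) :=
      (continuous_subtype_val.tendsto _).comp h2
    exact (h3.sub_const _).inner tendsto_const_nhds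
  have hle : inner ℝ d d ≤ inner ℝ (((0 : ℤ_[p]) +ᵥ x : M) - (x : H)) d := by
    apply ge_of_tendsto hlim
    filter_upwards with k
    exact hmon (p ^ k) (Nat.one_le_pow _ _ (Fact.out : p.Prime).pos)
  have h0 : inner ℝ d d ≤ 0 := by simpa using hle
  have hd0 : d = 0 := by
    have := real_inner_self_nonneg (x := d)
    exact inner_self_eq_zero.mp (le_antisymm h0 this)
  have : ((g +ᵥ x : M) : H) = (x : H) := sub_eq_zero.mp hd0
  exact Subtype.ext this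

theorem monotone_action_not_faithful (p : ℕ) [Fact p.Prime] {H : Type*} [NormedAddCommGroup H]
    [InnerProductSpace ℝ H] (M : Set H) [AddAction ℤ_[p] M] [ContinuousVAdd ℤ_[p] M]
    (U : AddSubgroup ℤ_[p]) (hU : IsOpen (U : Set ℤ_[p]))
    (hmono : ∀ g ∈ U, ∀ x y : M,
      0 ≤ inner ℝ (((g +ᵥ x : M) : H) - ((g +ᵥ y : M) : H)) ((x : H) - (y : H))) :
    ¬ FaithfulVAdd ℤ_[p] M := by
  intro hF
  have hmem : ∀ᶠ k : ℕ in atTop, ((p : ℤ_[p]) ^ k) ∈ (U : Set ℤ_[p]) :=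
    (tendsto_pow_zero p) (hU.mem_nhds U.zero_mem)
  obtain ⟨k, hk⟩ := hmem.exists
  have h1 : ∀ x : M, ((p : ℤ_[p]) ^ k) +ᵥ x = (0 : ℤ_[p]) +ᵥ x := by
    intro x
    rw [monotone_action_trivial p M U hmono _ hk x, zero_vadd]
  have h2 := hF.eq_of_vadd_eq_vadd h1
  have hp : (p : ℤ_[p]) ≠ 0 := by
    exact_mod_cast (Fact.out : p.Prime).ne_zero
  exact pow_ne_zero k hp h2

end Vale.Agent.Lib.P228
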