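import Vale.Agent.Lib.P228.LocalMonotone
import Vale.Agent.Lib.P228.Monotone

/-!
# P228: local structure of locally monotone actions of the p-adic integers

If every point of `M` has a neighbourhood on which all elements of some open subgroup act
monotonically, then every point has a neighbourhood that is fixed pointwise by an open subgroup.
For compact `M`, and for connected `M` with one subgroup for all points, a single open subgroup
fixes every point.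
-/

namespace Vale.Agent.Lib.P228.Structure

open Filter Topology

/-- The elements of `ℤ_[p]` that fix every point of a set `S`. -/
def fixer (p : ℕ) [Fact p.Prime] {X : Type*} [AddAction ℤ_[p] X] (S : Set X) :
    AddSubgroup ℤ_[p] where
  carrier := {g | ∀ y ∈ S, g +ᵥ y = y}
  zero_mem' := fun y _ => zero_vadd _ y
  add_mem' := by
    intro a b ha hb y hy
    show (a + b) +ᵥ y = y
    rw [add_vadd, hb y hy, ha y hy]
  neg_mem' := by
    intro a ha y hy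
    show (-a) +ᵥ y = y
    have h := ha y hy
    calc (-a) +ᵥ y = (-a) +ᵥ (a +ᵥ y) := by rw [h]
      _ = y := by rw [← add_vadd, neg_add_cancel, zero_vadd]

theorem mem_fixer (p : ℕ) [Fact p.Prime] {X : Type*} [AddAction ℤ_[p] X] (S : Set X)
    (g : ℤ_[p]) : g ∈ fixer p S ↔ ∀ y ∈ S, g +ᵥ y = y := Iff.rfl

/-- If a power of `p` fixes every point of `S`, the pointwise fixer of `S` is an open subgroup. -/
theorem fixer_isOpen (p : ℕ) [Fact p.Prime] {X : Type*} [TopologicalSpace X] [T2Space X]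
    [AddAction ℤ_[p] X] [ContinuousVAdd ℤ_[p] X] (S : Set X) (k : ℕ)
    (hk : ∀ y ∈ S, ((p : ℤ_[p]) ^ k) +ᵥ y = y) :
    IsOpen ((fixer p S : AddSubgroup ℤ_[p]) : Set ℤ_[p]) := by
  have hclosed : IsClosed ((fixer p S : AddSubgroup ℤ_[p]) : Set ℤ_[p]) := by
    have hset : ((fixer p S : AddSubgroup ℤ_[p]) : Set ℤ_[p])
        = ⋂ y ∈ S, {g : ℤ_[p] | g +ᵥ y = y} := by
      ext g
      rw [Set.mem_iInter₂]
      exact Iff.rfl
    rw [hset]
    exact isClosed_biInter fun y _ =>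
      isClosed_eq (continuous_id.vadd continuous_const) continuous_const
  have hmul : ∀ u : ℤ_[p], (p : ℤ_[p]) ^ k * u ∈ fixer p S := by
    intro u
    refine DenseRange.induction_on PadicInt.denseRange_natCast u ?_ ?_
    · exact hclosed.preimage (continuous_const.mul continuous_id)
    · intro n y hy
      have hn : (p : ℤ_[p]) ^ k * (n : ℤ_[p]) = n • ((p : ℤ_[p]) ^ k) := by
        rw [nsmul_eq_mul, mul_comm]
      rw [hn]
      exact Local.nsmul_fixed _ y (hk y hy) n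
  apply AddSubgroup.isOpen_of_mem_nhds (g := 0)
  have hball : Metric.closedBall (0 : ℤ_[p]) ((p : ℝ) ^ (-(k : ℤ))) ∈ 𝓝 (0 : ℤ_[p]) :=
    Metric.closedBall_mem_nhds _ (zpow_pos (by exact_mod_cast (Fact.out : p.Prime).pos) _)
  refine Filter.mem_of_superset hball ?_
  intro g hg
  rw [mem_closedBall_zero_iff, PadicInt.norm_le_pow_iff_mem_span_pow,
    Ideal.mem_span_singleton'] at hg
  obtain ⟨c, rfl⟩ := hg
  rw [mul_comm]
  exact hmul c

/-- Local structure: every point has a neighbourhood fixed pointwise by an open subgroup. -/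
theorem locally_fixed (p : ℕ) [Fact p.Prime] {H : Type*} [NormedAddCommGroup H]
    [InnerProductSpace ℝ H] (M : Set H) [AddAction ℤ_[p] M] [ContinuousVAdd ℤ_[p] M]
    (hloc : ∀ x : M, ∃ N : Set M, IsOpen N ∧ x ∈ N ∧ ∃ U : AddSubgroup ℤ_[p],
      IsOpen (U : Set ℤ_[p]) ∧ ∀ g ∈ U, ∀ y ∈ N, ∀ z ∈ N,
      0 ≤ inner ℝ (((g +ᵥ y : M) : H) - ((g +ᵥ z : M) : H)) ((y : H) - (z : H))) (x : M) :
    ∃ N' : Set M, IsOpen N' ∧ x ∈ N' ∧ ∃ V : AddSubgroup ℤ_[p],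
      IsOpen (V : Set ℤ_[p]) ∧ ∀ g ∈ V, ∀ y ∈ N', g +ᵥ y = y := by
  obtain ⟨N, hN, hxN, U, hU, hmono⟩ := hloc x
  obtain ⟨N', hN', hxN', k, hk⟩ := Local.locally_trivial p M x N hN hxN U hU hmono
  exact ⟨N', hN', hxN', fixer p N', fixer_isOpen p N' k hk, fun g hg y hy => hg y hy⟩

/-- If a power of `p` fixes every point, an open subgroup fixes every point. -/
theorem open_subgroup_of_pow (p : ℕ) [Fact p.Prime] {H : Type*} [NormedAddCommGroup H]
    [InnerProductSpace ℝ H] (M : Set H) [AddAction ℤ_[p] M] [ContinuousVAdd ℤ_[p] M]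
    (K : ℕ) (hK : ∀ y : M, ((p : ℤ_[p]) ^ K) +ᵥ y = y) :
    ∃ V : AddSubgroup ℤ_[p], IsOpen (V : Set ℤ_[p]) ∧ ∀ g ∈ V, ∀ y : M, g +ᵥ y = y :=
  ⟨fixer p (Set.univ : Set M), fixer_isOpen p Set.univ K (fun y _ => hK y),
    fun _ hg y => hg y (Set.mem_univ y)⟩

/-- Compact case: some power of `p` fixes every point. -/
theorem compact_pow_fixes (p : ℕ) [Fact p.Prime] {H : Type*} [NormedAddCommGroup H]
    [InnerProductSpace ℝ H] (M : Set H) [AddAction ℤ_[p] M] [ContinuousVAdd ℤ_[p] M]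
    (hM : IsCompact M)
    (hloc : ∀ x : M, ∃ N : Set M, IsOpen N ∧ x ∈ N ∧ ∃ U : AddSubgroup ℤ_[p],
      IsOpen (U : Set ℤ_[p]) ∧ ∀ g ∈ U, ∀ y ∈ N, ∀ z ∈ N,
      0 ≤ inner ℝ (((g +ᵥ y : M) : H) - ((g +ᵥ z : M) : H)) ((y : H) - (z : H))) :
    ∃ K : ℕ, ∀ y : M, ((p : ℤ_[p]) ^ K) +ᵥ y = y := by
  have : CompactSpace M := isCompact_iff_compactSpace.mp hM
  have hloc' : ∀ x : M, ∃ N' : Set M, IsOpen N' ∧ x ∈ N' ∧
      ∃ k : ℕ, ∀ y ∈ N', ((p : ℤ_[p]) ^ k) +ᵥ y = y := by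
    intro x
    obtain ⟨N, hN, hxN, U, hU, hmono⟩ := hloc x
    exact Local.locally_trivial p M x N hN hxN U hU hmono
  choose N' hN'open hxN' kf hkf using hloc'
  obtain ⟨t, ht⟩ := isCompact_univ.elim_finite_subcover N' hN'open
    (fun x _ => Set.mem_iUnion.mpr ⟨x, hxN' x⟩)
  refine ⟨t.sum kf, fun y => ?_⟩
  have hy : y ∈ ⋃ i ∈ t, N' i := ht (Set.mem_univ y)
  simp only [Set.mem_iUnion] at hy
  obtain ⟨i, hit, hyi⟩ := hy
  have hle : kf i ≤ t.sum kf :=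
    Finset.single_le_sum (f := kf) (fun _ _ => Nat.zero_le _) hit
  have hpow : ((p : ℤ_[p]) ^ (t.sum kf))
      = (p ^ (t.sum kf - kf i)) • ((p : ℤ_[p]) ^ kf i) := by
    rw [nsmul_eq_mul]
    push_cast
    rw [← pow_add, Nat.sub_add_cancel hle]
  rw [hpow]
  exact Local.nsmul_fixed _ y (hkf i y hyi) _

/-- Connected case with one subgroup for all points: some power of `p` fixes every point. -/
theorem connected_pow_fixes (p : ℕ) [Fact p.Prime] {H : Type*} [NormedAddCommGroup H]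
    [InnerProductSpace ℝ H] (M : Set H) [AddAction ℤ_[p] M] [ContinuousVAdd ℤ_[p] M]
    (hM : IsPreconnected M)
    (U : AddSubgroup ℤ_[p]) (hU : IsOpen (U : Set ℤ_[p]))
    (hloc : ∀ x : M, ∃ N : Set M, IsOpen N ∧ x ∈ N ∧ ∀ g ∈ U, ∀ y ∈ N, ∀ z ∈ N,
      0 ≤ inner ℝ (((g +ᵥ y : M) : H) - ((g +ᵥ z : M) : H)) ((y : H) - (z : H))) :
    ∃ K : ℕ, ∀ y : M, ((p : ℤ_[p]) ^ K) +ᵥ y = y := by
  have : PreconnectedSpace M := isPreconnected_iff_preconnectedSpace.mp hM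
  by_cases hne : Nonempty M
  · obtain ⟨x0⟩ := hne
    obtain ⟨N0, hN0, hx0, hmono0⟩ := hloc x0
    have hcont : Continuous (fun g : ℤ_[p] => (g +ᵥ x0 : M)) :=
      continuous_id.vadd continuous_const
    have hpre : (fun g : ℤ_[p] => (g +ᵥ x0 : M)) ⁻¹' N0 ∈ 𝓝 (0 : ℤ_[p]) := by
      apply (hN0.preimage hcont).mem_nhds
      simpa using hx0
    have hev1 : ∀ᶠ k : ℕ in atTop, ((p : ℤ_[p]) ^ k) ∈ (U : Set ℤ_[p]) :=
      (Local.tendsto_pow_zero' p) (hU.mem_nhds U.zero_mem)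
    have hev2 : ∀ᶠ k : ℕ in atTop,
        ((p : ℤ_[p]) ^ k) ∈ (fun g : ℤ_[p] => (g +ᵥ x0 : M)) ⁻¹' N0 :=
      (Local.tendsto_pow_zero' p) hpre
    obtain ⟨k, hkU, hkN⟩ := (hev1.and hev2).exists
    have hgU : ∀ j : ℕ, j • ((p : ℤ_[p]) ^ k) ∈ U := fun j => U.nsmul_mem hkU j
    have hfix0 : ((p : ℤ_[p]) ^ k) +ᵥ x0 = x0 :=
      Local.local_fixed p M N0 _ (fun j y hy z hz => hmono0 _ (hgU j) y hy z hz) x0 hx0 hkN
    have hclosed : IsClosed {x : M | ((p : ℤ_[p]) ^ k) +ᵥ x = x} :=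
      isClosed_eq (continuous_const_vadd _) continuous_id
    have hopen : IsOpen {x : M | ((p : ℤ_[p]) ^ k) +ᵥ x = x} := by
      rw [isOpen_iff_forall_mem_open]
      intro x hx
      obtain ⟨N, hN, hxN, hmono⟩ := hloc x
      refine ⟨N ∩ (fun y : M => ((p : ℤ_[p]) ^ k) +ᵥ y) ⁻¹' N, ?_, ?_, ?_⟩
      · intro y hy
        exact Local.local_fixed p M N _ (fun j y hy z hz => hmono _ (hgU j) y hy z hz)
          y hy.1 hy.2
      · exact hN.inter (hN.preimage (continuous_const_vadd _))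
      · refine ⟨hxN, ?_⟩
        show ((p : ℤ_[p]) ^ k) +ᵥ x ∈ N
        have hx' : ((p : ℤ_[p]) ^ k) +ᵥ x = x := hx
        rw [hx']
        exact hxN
    have huniv : {x : M | ((p : ℤ_[p]) ^ k) +ᵥ x = x} = Set.univ := by
      rcases isClopen_iff.mp ⟨hclosed, hopen⟩ with h | h
      · have h0 : x0 ∈ ({x : M | ((p : ℤ_[p]) ^ k) +ᵥ x = x} : Set M) := hfix0
        rw [h] at h0
        exact absurd h0 (Set.notMem_empty _)
      · exact h
    refine ⟨k, fun y => ?_⟩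
    have hy : y ∈ ({x : M | ((p : ℤ_[p]) ^ k) +ᵥ x = x} : Set M) := by
      rw [huniv]
      exact Set.mem_univ _
    exact hy
  · exact ⟨0, fun y => absurd ⟨y⟩ hne⟩

/-- The structure theorem for locally monotone actions of the p-adic integers. -/
theorem structure_main (p : ℕ) [Fact p.Prime] {H : Type*} [NormedAddCommGroup H]
    [InnerProductSpace ℝ H] (M : Set H) [AddAction ℤ_[p] M] [ContinuousVAdd ℤ_[p] M] :
    ((∀ x : M, ∃ N : Set M, IsOpen N ∧ x ∈ N ∧ ∃ U : AddSubgroup ℤ_[p],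
        IsOpen (U : Set ℤ_[p]) ∧ ∀ g ∈ U, ∀ y ∈ N, ∀ z ∈ N,
          0 ≤ inner ℝ (((g +ᵥ y : M) : H) - ((g +ᵥ z : M) : H)) ((y : H) - (z : H))) →
      (∀ x : M, ∃ N' : Set M, IsOpen N' ∧ x ∈ N' ∧ ∃ V : AddSubgroup ℤ_[p],
        IsOpen (V : Set ℤ_[p]) ∧ ∀ g ∈ V, ∀ y ∈ N', g +ᵥ y = y) ∧
      (IsCompact M →
        (∃ V : AddSubgroup ℤ_[p], IsOpen (V : Set ℤ_[p]) ∧ ∀ g ∈ V, ∀ y : M, g +ᵥ y = y) ∧
        ¬ FaithfulVAdd ℤ_[p] M)) ∧
    (∀ U : AddSubgroup ℤ_[p], IsOpen (U : Set ℤ_[p]) →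
      (∀ x : M, ∃ N : Set M, IsOpen N ∧ x ∈ N ∧ ∀ g ∈ U, ∀ y ∈ N, ∀ z ∈ N,
        0 ≤ inner ℝ (((g +ᵥ y : M) : H) - ((g +ᵥ z : M) : H)) ((y : H) - (z : H))) →
      IsPreconnected M →
        (∃ V : AddSubgroup ℤ_[p], IsOpen (V : Set ℤ_[p]) ∧ ∀ g ∈ V, ∀ y : M, g +ᵥ y = y) ∧
        ¬ FaithfulVAdd ℤ_[p] M) ∧
    (∀ U : AddSubgroup ℤ_[p], IsOpen (U : Set ℤ_[p]) →
      (∀ g ∈ U, ∀ x y : M,
        0 ≤ inner ℝ (((g +ᵥ x : M) : H) - ((g +ᵥ y : M) : H)) ((x : H) - (y : H))) →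
      (∀ g ∈ U, ∀ x : M, g +ᵥ x = x) ∧ ¬ FaithfulVAdd ℤ_[p] M) := by
  refine ⟨fun hloc => ⟨fun x => locally_fixed p M hloc x, fun hM => ⟨?_, ?_⟩⟩,
    fun U hU hloc hM => ⟨?_, ?_⟩, fun U hU hmono => ⟨?_, ?_⟩⟩
  · obtain ⟨K, hK⟩ := compact_pow_fixes p M hM hloc
    exact open_subgroup_of_pow p M K hK
  · exact Local.locally_monotone_compact_not_faithful p M hM hloc
  · obtain ⟨K, hK⟩ := connected_pow_fixes p M hM U hU hloc
    exact open_subgroup_of_pow p M K hK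
  · exact Local.locally_monotone_not_faithful p M hM U hU hloc
  · exact fun g hg x => monotone_action_trivial p M U hmono g hg x
  · exact monotone_action_not_faithful p M U hU hmono

end Vale.Agent.Lib.P228.Structure
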